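import Mathlib
import Vale.Agent.P194.Descent
import Vale.Agent.P194.Indicable
import Vale.Agent.P194.Local
import Vale.Agent.P194.Kernel
import Vale.Agent.P194.ModelFinite

namespace Vale.Agent.Results.P194.ExtensionFiniteness

open Vale.Agent.P194

universe u v

theorem result : ∀ (p : ℕ) [Fact p.Prime] (K : Type v) [Field K] [CharP K p]
    (G : Type u) [Group G],
    (LocallyEmbedsInto G
        (fun (H : Type u) [Group H] => HasGoodKernel p K H ∨ IsPIndicablySofic p H) →
      IsStablyFiniteRing (MonoidAlgebra K G)) ∧
    (∀ (H : Subgroup G), IsCoamenable H →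
      (IsLocallyPIndicable p ↥H ∨ IsLocallyIndicable ↥H ∨ IsFreeGroup ↥H) →
      IsStablyFiniteRing (MonoidAlgebra K G)) ∧
    (∀ (N : Subgroup G) [N.Normal], IsSofic (G ⧸ N) →
      (IsLocallyIndicable ↥N ∨ IsFreeGroup ↥N) → IsStablyFiniteRing (MonoidAlgebra K G)) := by
  intro p _ K _ _ G _
  refine ⟨fun hG => stablyFinite_of_locallyEmbedsInto _ ?_ hG, ?_, ?_⟩
  · intro H _ hH
    rcases hH with ⟨N, hN, hlpi, hQ⟩ | hH
    · haveI := hN
      rcases hQ with hQ | hQ
      · haveI := stablyFinite_of_sofic (K := K) hQ
        exact stablyFinite_of_quotient N hlpi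
      · haveI := hQ
        exact stablyFinite_of_quotient N hlpi
    · exact stablyFinite_of_indicablySofic hH
  · intro H hco hH
    refine stablyFinite_of_indicablySofic (p := p) (indicablySofic_of_coamenable H hco ?_)
    rcases hH with hH | hH | hH
    · exact hH
    · exact locallyPIndicable_of_locallyIndicable p hH
    · haveI := hH
      exact locallyPIndicable_of_locallyIndicable p locallyIndicable_of_free
  · intro N _ hQ hN
    haveI := stablyFinite_of_sofic (K := K) hQ
    rcases hN with hN | hN
    · exact stablyFinite_of_quotient N (locallyPIndicable_of_locallyIndicable p hN)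
    · haveI := hN
      exact stablyFinite_of_quotient N
        (locallyPIndicable_of_locallyIndicable p locallyIndicable_of_free)

end Vale.Agent.Results.P194.ExtensionFiniteness
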